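import Vale.Agent.P194.Core

namespace Vale.Agent.Results.P186.NotRF

theorem result :
    ∃ (G : Type) (_ : Group G) (T : Finset G), Subgroup.closure (T : Set G) = ⊤ ∧
      (∃ δ : ℕ, ∀ (x y z : G) (p : (SimpleGraph.mulCayley (T : Set G)).Walk x y)
        (q : (SimpleGraph.mulCayley (T : Set G)).Walk y z)
        (t : (SimpleGraph.mulCayley (T : Set G)).Walk z x),
        p.length = (SimpleGraph.mulCayley (T : Set G)).dist x y →
        q.length = (SimpleGraph.mulCayley (T : Set G)).dist y z →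
        t.length = (SimpleGraph.mulCayley (T : Set G)).dist z x →
        ∀ v ∈ p.support, ∃ u, (u ∈ q.support ∨ u ∈ t.support) ∧
          (SimpleGraph.mulCayley (T : Set G)).dist v u ≤ δ) ∧
      ¬ Group.ResiduallyFinite G ∧
      ∃ g : G, g ≠ 1 ∧ ∀ (F : Type) (_ : Group F) (_ : Finite F) (φ : G →* F), φ g = 1 := by
  obtain ⟨G, _, T, h1, h2, h3, -⟩ := Vale.Agent.P194.core
  refine ⟨G, inferInstance, T, h1, h2, h3, ?_⟩
  by_contra h
  push Not at h
  refine h3 (Group.residuallyFinite_of_forall_exists_finite_monoidHom fun g hg => ?_)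
  obtain ⟨F, _, _, φ, h4⟩ := h g hg
  exact ⟨F, inferInstance, inferInstance, φ, h4⟩

end Vale.Agent.Results.P186.NotRF
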